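import Vale.Agent.P352X.R.WK
import Vale.Agent.P352X.R.GEN.A

/-!
# P352X, row WK without the context bundle
-/

set_option linter.all false

noncomputable section

open MeasureTheory Filter Topology Set
open scoped SchwartzMap

namespace Vale.Agent.P352X.Wk

open Vale.Agent.P352 Vale.Agent.P352.GF Vale.Agent.P352.BW
open Vale.Agent.P352.H246 Vale.Agent.P352.H496 Vale.Agent.P352.H755 Vale.Agent.P352.H15
open H148 (snS Od)
open UniformSpace (Completion)
open Br

variable {D : Type*} [NormedAddCommGroup D] [InnerProductSpace ℂ D] {Q : Theory D}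
  {T : Ix → Ix → Fld D}

theorem od' (hT : Q.IsStress T) (m n : Ix) : Od (T m n) (T m n) :=
  have h := Q.bose_fld _ (hT.bose m n)
  ⟨fun f g a v hf hg => Q.lin _ f g a v h hf hg, fun v => Q.cont _ v h, hT.herm m n⟩

/-- the joint bound for the product of two components -/
theorem bd2' (hT : Q.IsStress T) (v : D) : ∃ (m : ℕ) (C : ℝ), ∀ i j k l (f g : Sch),
    ‖T i j (ev f) (T k l (ev g) v)‖ ≤ C * sn m f * sn m g := by
  choose K n K0 h using fun i : I2 × I2 => (od' hT i.1.1 i.1.2).joint (od' hT i.2.1 i.2.2) v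
  obtain ⟨m, C, C0, hC⟩ := Lie.clm ((snS (Finset.univ.sup n)).comp ofSch.toLinearMap)
    ((H148.cont_snS _).comp ofSch.continuous)
  refine ⟨m, (∑ i, K i) * C * C, fun i j k l f g => (h ((i, j), k, l) (ofSch f) (ofSch g)).trans ?_⟩
  have e := fun f => (H148.snS_mono (Finset.le_sup (f := n) (Finset.mem_univ ((i, j), k, l)))
    (ofSch f)).trans (hC f)
  have := Finset.single_le_sum (fun i _ => K0 i) (Finset.mem_univ ((i, j), k, l))
  have := Finset.sum_nonneg fun i (_ : i ∈ Finset.univ) => K0 i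
  have := Lie.sn_nonneg m f
  calc _ ≤ (∑ i, K i) * (C * sn m f) * (C * sn m g) := by
        gcongr
        exacts [e f, e g]
    _ = _ := by ring

lemma ug_coe {s : ℝ} {L : Ix → V} (hs : 0 < s) (hL : GF.IsLor L) (a : V) (v : D) :
    Ug Q s L a v = (Q.U s L a v : D) := (Ug_apply Q hs hL a _).trans (ue_coe hs hL a v)

lemma cov' (hT : Q.IsStress T) {s : ℝ} {L : Ix → V} (hs : 0 < s) (hL : GF.IsLor L) (a : V)
    (K : I2) (f : Sch) (v : D) : T K.1 K.2 (ev f) (Q.U s L a v) =
      ∑ K', L2 L K' K • ueI Q hs hL a (T K'.1 K'.2 (ev (Grp.simS hs hL a f)) v) := by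
  rw [hT.cov _ _ s L a _ v hs hL ⟨f, rfl⟩, Fintype.sum_prod_type,
    show ev (Grp.simS hs hL a f) = _ from funext (Grp.simS_apply hs hL a f)]
  simp only [L2, Complex.ofReal_mul]
  rfl

/-- **Row WK for a stress tensor of any theory.** -/
theorem wk_gen (hT : Q.IsStress T) : ∃ W : I2 → I2 → S2 →L[ℂ] Completion D,
    (∀ K M (f g : Sch) (F : S2), (∀ x y, F (x, y) = f x * g y) →
      W K M F = ((T K.1 K.2 (ev f) (T M.1 M.2 (ev g) Q.vac) : D) : Completion D)) ∧
    ∀ s L a K M (F G : S2), 0 < s → GF.IsLor L →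
      (∀ x y, G (x, y) = F (sim s L a x, sim s L a y)) →
        W K M F = ∑ K', ∑ M', (L2 L K' K * L2 L M' M) • Ug Q s L a (W K' M' G) := by
  obtain ⟨m, C, h⟩ := bd2' hT Q.vac
  choose W hW using fun K M : I2 => kernel
    (bil (Grp.T_fld hT K.1 K.2) (Grp.T_fld hT M.1 M.2) Q.vac) (C := C) (m := m) fun f g =>
      (Completion.norm_coe _).trans_le (h _ _ _ _ f g)
  have hW' : ∀ K M f g, W K M (ST.tens f g) =
      ((T K.1 K.2 (ev f) (T M.1 M.2 (ev g) Q.vac) : D) : Completion D) := hW
  refine ⟨W, fun K M f g F e => ?_, fun s L a K M F G hs hL e => ?_⟩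
  · rw [show F = ST.tens f g from SchwartzMap.ext fun z => e z.1 z.2, hW']
  · rw [show G = sim2 hs hL a F from SchwartzMap.ext fun z =>
      (e z.1 z.2).trans (sim2_apply hs hL a F z.1 z.2).symm]
    have key : W K M = ∑ K', ∑ M', (L2 L K' K * L2 L M' M) •
        (Ug Q s L a ∘L W K' M' ∘L sim2 hs hL a) := ST.ext2 fun f g _ _ => by
      simp only [ContinuousLinearMap.sum_apply, ContinuousLinearMap.smul_apply,
        ContinuousLinearMap.comp_apply, sim2_tens, hW', ug_coe hs hL]
      conv_lhs => rw [← Q.U_vac s L a hs hL, cov' hT hs hL, ← fL_apply (Grp.T_fld hT K.1 K.2)]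
      simp only [map_sum, map_smul, fL_apply, ueI_apply, cov' hT hs hL, Finset.smul_sum,
        smul_smul]
      rw [Finset.sum_comm, ← Completion.coe_toComplL (𝕜 := ℂ), map_sum]
      simp only [map_sum, map_smul, Completion.coe_toComplL, mul_comm]
    rw [key]
    simp only [ContinuousLinearMap.sum_apply, ContinuousLinearMap.smul_apply,
      ContinuousLinearMap.comp_apply]

end Vale.Agent.P352X.Wk
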