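import Vale.Agent.P352X.Api4

/-!
# P352X, row WK: the kernel theorem for Schwartz spaces
-/

set_option linter.all false

noncomputable section

open Filter Topology Metric MeasureTheory Set
open scoped SchwartzMap ContDiff LineDeriv FourierTransform RealInnerProductSpace

namespace Vale.Agent.P352X.Wk

open ST (mdl tsl pw frq tens)
open Api4 (sl ten2)

variable {E E' P H : Type*} [NormedAddCommGroup E] [NormedSpace ℝ E] [NormedAddCommGroup E']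
  [NormedSpace ℝ E'] [NormedAddCommGroup P] [NormedSpace ℝ P] [NormedAddCommGroup H]
  [NormedSpace ℂ H]

lemma sn_der (g : 𝓢(E, ℂ)) (v : E) (N : ℕ) :
    ST.sn E ℂ N (∂_{v} g) ≤ 2 ^ (N + 1) * ‖v‖ * ST.sn E ℂ (N + 1) g := by
  have hb := ((ST.bd_sch g (k := N) (Nat.le_succ N) le_rfl).fderiv_apply v).congr
    (ψ := (∂_{v} g : 𝓢(E, ℂ))) fun z => SchwartzMap.lineDerivOp_apply_eq_fderiv _ _ _
  refine hb.sn_le fun z => le_of_eq ?_
  have : (0 : ℝ) < 1 + ‖z‖ := by positivity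
  field_simp

lemma cont_of_sn (T : 𝓢(E, ℂ) →+ H) {C : ℝ} {N : ℕ} (h : ∀ f, ‖T f‖ ≤ C * ST.sn E ℂ N f) :
    Continuous T := by
  refine continuous_of_tendsto_nhds_zero T (squeeze_zero_norm h ?_)
  simpa using ((ST.continuous_sn (E := E) (F := ℂ) N).tendsto 0).const_mul C

/-- linear maps with a bound are continuous -/
def mkC (T : 𝓢(E, ℂ) →ₗ[ℂ] H) {C : ℝ} {N : ℕ} (h : ∀ f, ‖T f‖ ≤ C * ST.sn E ℂ N f) :
    𝓢(E, ℂ) →L[ℂ] H := ⟨T, cont_of_sn T.toAddMonoidHom h⟩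

lemma cont_bil (B : 𝓢(E, ℂ) →ₗ[ℂ] 𝓢(E', ℂ) →ₗ[ℂ] H) {C : ℝ} {m : ℕ}
    (h : ∀ f g, ‖B f g‖ ≤ C * ST.sn E ℂ m f * ST.sn E' ℂ m g) :
    Continuous fun q : 𝓢(E, ℂ) × 𝓢(E', ℂ) => B q.1 q.2 := by
  refine continuous_iff_continuousAt.2 fun q => tendsto_sub_nhds_zero_iff.1
    (squeeze_zero_norm (a := fun r : 𝓢(E, ℂ) × 𝓢(E', ℂ) =>
      C * ST.sn E ℂ m (r.1 - q.1) * ST.sn E' ℂ m r.2 +
        C * ST.sn E ℂ m q.1 * ST.sn E' ℂ m (r.2 - q.2)) (fun r => ?_) ?_)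
  · have e : B r.1 r.2 - B q.1 q.2 = B (r.1 - q.1) r.2 + B q.1 (r.2 - q.2) := by simp
    rw [e]
    exact (norm_add_le _ _).trans (add_le_add (h _ _) (h _ _))
  · have h1 := ST.continuous_sn (E := E) (F := ℂ) m
    have h2 := ST.continuous_sn (E := E') (F := ℂ) m
    have : Continuous fun r : 𝓢(E, ℂ) × 𝓢(E', ℂ) =>
        C * ST.sn E ℂ m (r.1 - q.1) * ST.sn E' ℂ m r.2 +
          C * ST.sn E ℂ m q.1 * ST.sn E' ℂ m (r.2 - q.2) := by fun_prop
    simpa using this.tendsto q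

lemma fderiv_pw (l : E →L[ℝ] ℝ) (z v : E) :
    fderiv ℝ (pw l) z v = Complex.I * l v * pw l z := by
  have h : HasFDerivAt (pw l) _ z :=
    (((Complex.ofRealCLM ∘L l).hasFDerivAt (x := z)).const_mul Complex.I).cexp
  rw [h.fderiv]
  simp [pw]
  ring

section coef

variable [FiniteDimensional ℝ E] [MeasurableSpace E] [BorelSpace E] (μ : Measure E)
  [μ.IsAddHaarMeasure]

lemma parts (l : E →L[ℝ] ℝ) (h : 𝓢(E, ℂ)) (v : E) :
    ∫ z, mdl l (∂_{v} h) z ∂μ = -(Complex.I * l v * ∫ z, mdl l h z ∂μ) := by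
  have i1 : ∀ g : 𝓢(E, ℂ), Integrable (fun z => pw l z * g z) μ := fun g => by
    simpa only [← ST.mdl_apply] using (mdl l g).integrable
  have := integral_mul_fderiv_eq_neg_fderiv_mul_of_integrable (μ := μ) (f := pw l) (g := h)
    (v := v) (by simpa only [fderiv_pw, mul_assoc] using ((i1 h).const_mul _).const_mul _)
    (by simpa only [SchwartzMap.lineDerivOp_apply_eq_fderiv] using i1 (∂_{v} h)) (i1 h)
    (fun z _ => ((ST.bd_pw l 0).1.differentiable (by simp)) z) fun z _ => h.differentiableAt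
  simp only [ST.mdl_apply, SchwartzMap.lineDerivOp_apply_eq_fderiv]
  rw [this, ← integral_const_mul]
  simp only [fderiv_pw, mul_assoc]

/-- decay of the Fourier transform -/
lemma decay (M : ℕ) : ∃ (C : ℝ) (N : ℕ), 0 ≤ C ∧ ∀ (l : E →L[ℝ] ℝ) (h : 𝓢(E, ℂ)),
    (1 + ‖l‖) ^ M * ‖∫ z, mdl l h z ∂μ‖ ≤ C * ST.sn E ℂ N h := by
  induction M with
  | zero =>
    refine ⟨2 ^ μ.integrablePower * ∫ y : E, ((1 + ‖y‖) ^ μ.integrablePower)⁻¹ ∂μ,
      μ.integrablePower, ?_, fun l h => ?_⟩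
    · exact mul_nonneg (by positivity) (integral_nonneg fun y => by positivity)
    · rw [pow_zero, one_mul, mul_right_comm, ← integral_const_mul]
      refine norm_integral_le_of_norm_le ((Api4.integrable_w μ).const_mul _)
        (Eventually.of_forall fun z => ?_)
      rw [ST.mdl_apply, norm_mul, ST.norm_pw, one_mul, ← div_eq_mul_inv]
      exact (ST.bd_sch h le_rfl (Nat.zero_le _)).norm_le z
  | succ M ih =>
    obtain ⟨C, N, hC, h0⟩ := ih
    refine ⟨C + C * 2 ^ (N + 1), N + 1, by positivity, fun l h => ?_⟩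
    set X := (1 + ‖l‖) ^ M * ‖∫ z, mdl l h z ∂μ‖ with hX
    have hX0 : 0 ≤ X := by positivity
    have h1 : ‖X • l‖ ≤ C * 2 ^ (N + 1) * ST.sn E ℂ (N + 1) h := by
      refine ContinuousLinearMap.opNorm_le_bound _ (by positivity) fun v => ?_
      have h2 := (h0 l (∂_{v} h)).trans (mul_le_mul_of_nonneg_left (sn_der h v N) hC)
      rw [parts, norm_neg, norm_mul, norm_mul, Complex.norm_I, Complex.norm_real] at h2
      rw [ContinuousLinearMap.smul_apply, norm_smul, Real.norm_of_nonneg hX0, hX]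
      linarith
    rw [norm_smul, Real.norm_of_nonneg hX0] at h1
    have h3 := (h0 l h).trans (mul_le_mul_of_nonneg_left (ST.sn_mono (Nat.le_succ N) h) hC)
    calc _ = X + X * ‖l‖ := by rw [hX]; ring
      _ ≤ _ := by linarith

/-- the coefficients `∫ exp (-i l z) φ (x - z) F z dz` -/
def co (φ : 𝓢(E, ℂ)) (x : E) (l : E →L[ℝ] ℝ) : 𝓢(E, ℂ) →L[ℂ] ℂ :=
  SchwartzMap.integralCLM ℂ μ ∘L mdl (-l) ∘L sl x ∘L ten2 φ

lemma co_eq (φ : 𝓢(E, ℂ)) (x : E) (l : E →L[ℝ] ℝ) (F : 𝓢(E, ℂ)) :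
    co μ φ x l F = ∫ z, mdl (-l) (sl x (ten2 φ F)) z ∂μ := rfl

lemma co_apply (φ : 𝓢(E, ℂ)) (x : E) (l : E →L[ℝ] ℝ) (F : 𝓢(E, ℂ)) :
    co μ φ x l F = ∫ z, pw (-l) z * (φ (x - z) * F z) ∂μ := by
  simp only [co_eq, ST.mdl_apply, Api4.sl_apply, Api4.ten2_apply]

lemma continuous_co (φ F : 𝓢(E, ℂ)) {x : P → E} {l : P → E →L[ℝ] ℝ} (hx : Continuous x)
    (hl : Continuous l) : Continuous fun p => co μ φ (x p) (l p) F := by
  have h1 : Continuous fun p => mdl (-l p) (sl (x p) (ten2 φ F)) :=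
    ST.continuous_mdl.comp₂ hl.neg ((Api4.continuous_sl' (ten2 φ F)).comp hx)
  exact (SchwartzMap.integralCLM ℂ μ).continuous.comp h1

lemma co_bd (φ : 𝓢(E, ℂ)) (M : ℕ) : ∃ (C : ℝ) (N : ℕ), 0 ≤ C ∧ ∀ x l F,
    ((1 + ‖x‖) * (1 + ‖l‖)) ^ M * ‖co μ φ x l F‖ ≤ C * ST.sn E ℂ N F := by
  obtain ⟨C, N, hC, h0⟩ := decay μ M
  obtain ⟨A, hA, h1⟩ := Api4.sn_tenE (Api4.sh2 E) (N + M)
  refine ⟨C * 2 ^ (N + M) * (A * ST.sn E ℂ (N + M) φ), N + M, by positivity, fun x l F => ?_⟩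
  have h2 := h0 (-l) (sl x (ten2 φ F))
  have h3 := Api4.sn_sl (ten2 φ F) x N M
  have h4 := h1 φ F
  simp only [Api4.sn_eq] at h4
  rw [norm_neg, ← co_eq] at h2
  rw [le_div_iff₀ (by positivity)] at h3
  calc _ = (1 + ‖l‖) ^ M * ‖co μ φ x l F‖ * (1 + ‖x‖) ^ M := by rw [mul_pow]; ring
    _ ≤ C * ST.sn E ℂ N (sl x (ten2 φ F)) * (1 + ‖x‖) ^ M := by gcongr
    _ ≤ C * (2 ^ (N + M) * ST.sn (E × E) ℂ (N + M) (ten2 φ F)) := by
      rw [mul_assoc]; gcongr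
    _ ≤ C * (2 ^ (N + M) * (A * ST.sn E ℂ (N + M) φ * ST.sn E ℂ (N + M) F)) := by
      gcongr; exact h4
    _ = _ := by ring

lemma co_tens [FiniteDimensional ℝ E'] [MeasurableSpace E'] [BorelSpace E'] (μ' : Measure E')
    [μ'.IsAddHaarMeasure] (φ f : 𝓢(E, ℂ)) (φ' g : 𝓢(E', ℂ)) (x : E) (x' : E') (l : E →L[ℝ] ℝ)
    (l' : E' →L[ℝ] ℝ) : co (μ.prod μ') (tens φ φ') (x, x') (l.coprod l') (tens f g) =
      co μ φ x l f * co μ' φ' x' l' g := by
  simp only [co_apply]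
  rw [← integral_prod_mul]
  refine integral_congr_ae (Eventually.of_forall fun z => ?_)
  have e : pw (-l.coprod l') z = pw (-l) z.1 * pw (-l') z.2 := by
    simp only [pw, ← Complex.exp_add]
    congr 1
    simp
    ring
  simp only [e, ST.tens_apply, Prod.fst_sub, Prod.snd_sub]
  ring

end coef

section sup

variable [CompleteSpace H] [MeasurableSpace P] [BorelSpace P] [SecondCountableTopology P]
  (ν : Measure P) [ν.HasTemperateGrowth]

/-- superpositions with rapidly decreasing coefficients -/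
lemma sup (c : P → 𝓢(E, ℂ) →L[ℂ] ℂ) {v : P → H} (hc : ∀ F, Continuous fun p => c p F)
    (hv : Continuous v)
    (hd : ∀ M : ℕ, ∃ (C : ℝ) (N : ℕ), ∀ p F, (1 + ‖p‖) ^ M * ‖c p F‖ ≤ C * ST.sn E ℂ N F)
    {A : ℝ} {k : ℕ} (hb : ∀ p, ‖v p‖ ≤ A * (1 + ‖p‖) ^ k) :
    (∀ F, Integrable (fun p => c p F • v p) ν) ∧
      ∃ W : 𝓢(E, ℂ) →L[ℂ] H, ∀ F, W F = ∫ p, c p F • v p ∂ν := by
  obtain ⟨C, N, h0⟩ := hd (k + ν.integrablePower)
  have hA : 0 ≤ A := by simpa using (norm_nonneg _).trans (hb 0)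
  have key : ∀ F p, ‖c p F • v p‖ ≤
      A * C * ST.sn E ℂ N F * ((1 + ‖p‖) ^ ν.integrablePower)⁻¹ := fun F p => by
    rw [← div_eq_mul_inv, le_div_iff₀ (by positivity), norm_smul]
    calc _ ≤ ‖c p F‖ * (A * (1 + ‖p‖) ^ k) * (1 + ‖p‖) ^ ν.integrablePower := by
          gcongr; exact hb p
      _ = A * ((1 + ‖p‖) ^ (k + ν.integrablePower) * ‖c p F‖) := by ring
      _ ≤ A * (C * ST.sn E ℂ N F) := mul_le_mul_of_nonneg_left (h0 p F) hA
      _ = _ := by ring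
  have hi : ∀ F, Integrable (fun p => c p F • v p) ν := fun F =>
    ((Api4.integrable_w ν).const_mul _).mono' ((hc F).smul hv).aestronglyMeasurable
      (Eventually.of_forall (key F))
  refine ⟨hi, mkC
    { toFun := fun F => ∫ p, c p F • v p ∂ν
      map_add' := fun F G => by simp only [map_add, add_smul, integral_add (hi F) (hi G)]
      map_smul' := fun a F => by
        simp only [map_smul, smul_assoc, integral_smul, RingHom.id_apply] }
    (C := A * C * ∫ p : P, ((1 + ‖p‖) ^ ν.integrablePower)⁻¹ ∂ν) (N := N) fun F => ?_,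
    fun F => rfl⟩
  rw [mul_right_comm, ← integral_const_mul]
  exact norm_integral_le_of_norm_le ((Api4.integrable_w ν).const_mul _)
    (Eventually.of_forall (key F))

end sup

section frame

variable [FiniteDimensional ℝ E] [MeasurableSpace E] [BorelSpace E]

lemma co_bd' (μ : Measure E) [μ.IsAddHaarMeasure] (φ : 𝓢(E, ℂ)) {x : P → E}
    {l : P → E →L[ℝ] ℝ} {K : ℝ} (hK : ∀ p, 1 + ‖p‖ ≤ K * ((1 + ‖x p‖) * (1 + ‖l p‖))) (M : ℕ) :
    ∃ (C : ℝ) (N : ℕ), ∀ p F, (1 + ‖p‖) ^ M * ‖co μ φ (x p) (l p) F‖ ≤ C * ST.sn E ℂ N F := by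
  obtain ⟨C, N, hC, h⟩ := co_bd μ φ M
  refine ⟨|K| ^ M * C, N, fun p F => ?_⟩
  have h1 := (hK p).trans (mul_le_mul_of_nonneg_right (le_abs_self K) (by positivity))
  calc _ ≤ (|K| * ((1 + ‖x p‖) * (1 + ‖l p‖))) ^ M * ‖co μ φ (x p) (l p) F‖ := by gcongr
    _ ≤ |K| ^ M * (C * ST.sn E ℂ N F) := by
      rw [mul_pow, mul_assoc]
      exact mul_le_mul_of_nonneg_left (h _ _ _) (by positivity)
    _ = _ := by ring

variable {W : Type*} [NormedAddCommGroup W] [InnerProductSpace ℝ W] [FiniteDimensional ℝ W]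
  [MeasurableSpace W] [BorelSpace W] (lam : E ≃L[ℝ] W)

/-- the atoms -/
def atm (ψ : 𝓢(E, ℂ)) (p : E × W) : 𝓢(E, ℂ) := mdl (frq (lam : E →L[ℝ] W) p.2) (tsl p.1 ψ)

lemma continuous_atm (ψ : 𝓢(E, ℂ)) : Continuous (atm lam ψ) :=
  ST.continuous_mdl.comp₂ ((ST.continuous_frq _).comp continuous_snd)
    (ST.continuous_tsl.comp₂ continuous_fst continuous_const)

lemma sn_atm (ψ : 𝓢(E, ℂ)) (m : ℕ) :
    ∃ A, 0 ≤ A ∧ ∀ p, ST.sn E ℂ m (atm lam ψ p) ≤ A * (1 + ‖p‖) ^ (m + m) := by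
  set K := 1 + 2 * Real.pi * ‖(lam : E →L[ℝ] W)‖ with hK
  have := Real.pi_pos
  refine ⟨4 ^ m * K ^ m * (2 ^ m * ST.sn E ℂ m ψ), by positivity, fun p => ?_⟩
  have h1 : 1 + ‖frq (lam : E →L[ℝ] W) p.2‖ ≤ K * (1 + ‖p‖) := by
    have h2 := ST.norm_frq_le (lam : E →L[ℝ] W) p.2
    have h3 : 0 ≤ 2 * Real.pi * ‖(lam : E →L[ℝ] W)‖ := by positivity
    have h4 := mul_le_mul_of_nonneg_left (norm_snd_le p) h3
    have := norm_nonneg p
    rw [hK]
    nlinarith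
  have h5 := norm_fst_le p
  calc _ ≤ _ := ST.sn_mdl _ _ m
    _ ≤ 4 ^ m * (K * (1 + ‖p‖)) ^ m * (2 ^ m * (1 + ‖p‖) ^ m * ST.sn E ℂ m ψ) := by
      gcongr
      exact (ST.sn_tsl _ _ m).trans (by gcongr)
    _ = _ := by rw [mul_pow]; ring

lemma low : ∃ K, 0 ≤ K ∧ ∀ p : E × W,
    1 + ‖p‖ ≤ K * ((1 + ‖p.1‖) * (1 + ‖frq (lam : E →L[ℝ] W) p.2‖)) := by
  set K := 1 + ‖(lam.symm : W →L[ℝ] E)‖ with hK
  refine ⟨K, by positivity, fun p => (ST.one_add_prod p).trans ?_⟩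
  rw [mul_left_comm]
  gcongr
  have h1 := (frq (lam : E →L[ℝ] W) p.2).le_opNorm (lam.symm p.2)
  have h2 := (lam.symm : W →L[ℝ] E).le_opNorm p.2
  rw [ST.frq_apply] at h1
  simp only [ContinuousLinearEquiv.coe_coe, lam.apply_symm_apply, real_inner_self_eq_norm_sq] at h1 h2
  have h3 := Real.pi_gt_three
  have h4 := norm_nonneg (frq (lam : E →L[ℝ] W) p.2)
  have h5 := norm_nonneg (lam.symm : W →L[ℝ] E)
  have h6 : ‖p.2‖ * ‖p.2‖ ≤ ‖p.2‖ * (‖(lam.symm : W →L[ℝ] E)‖ * ‖frq (lam : E →L[ℝ] W) p.2‖) := by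
    have h7 := (le_abs_self _).trans (h1.trans (mul_le_mul_of_nonneg_left h2 h4))
    nlinarith [sq_nonneg ‖p.2‖]
  rcases (norm_nonneg p.2).eq_or_lt with h8 | h8
  · rw [← h8, hK]; nlinarith
  · have := le_of_mul_le_mul_left h6 h8
    rw [hK]; nlinarith

/-- reconstruction -/
lemma recon [CompleteSpace H] {μ : Measure E} [μ.IsAddHaarMeasure] (hμ : μ = volume.map lam.symm)
    {φ ψ : 𝓢(E, ℂ)} (h1 : ∫ u, φ u ∂μ = 1) (h2 : ∀ u, φ u * ψ (-u) = φ u)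
    (Λ : 𝓢(E, ℂ) →L[ℂ] H) (f : 𝓢(E, ℂ)) :
    Λ f = ∫ p : E × W, co μ φ p.1 (frq (lam : E →L[ℝ] W) p.2) f • Λ (atm lam ψ p)
      ∂(μ.prod volume) := by
  obtain ⟨K, -, hK⟩ := low lam
  obtain ⟨C, m, hC, hΛ⟩ := ST.clm_sn_c Λ
  obtain ⟨A, -, hA⟩ := sn_atm lam ψ m
  have hi := (sup (μ.prod volume) (fun p : E × W => co μ φ p.1 (frq (lam : E →L[ℝ] W) p.2))
    (v := fun p => Λ (atm lam ψ p))
    (fun F => continuous_co μ φ F continuous_fst ((ST.continuous_frq _).comp continuous_snd))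
    (Λ.continuous.comp (continuous_atm lam ψ)) (co_bd' μ φ hK) (A := C * A) (k := m + m)
    fun p => (hΛ _).trans (by rw [mul_assoc]; gcongr; exact hA p)).1 f
  have e : Api4.pint μ (ten2 φ f) = f := SchwartzMap.ext fun z => by
    simp only [Api4.pint_apply, Api4.ten2_apply]
    rw [integral_mul_const, integral_sub_right_eq_self (fun x => φ x), h1, one_mul]
  rw [integral_prod _ hi, ← e, (Api4.par_sch μ _ Λ).2, e]
  refine integral_congr_ae (Eventually.of_forall fun x => ?_)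
  refine (ST.syn (SchwartzMap.compCLMOfContinuousLinearEquiv ℂ lam.symm (sl x (ten2 φ f)))
    (lam : E →L[ℝ] W) (tsl x ψ) _ (fun z => ?_) Λ).2.trans
    (integral_congr_ae (Eventually.of_forall fun ξ => ?_))
  · have := h2 (x - z)
    simp only [neg_sub] at this
    simp [ST.tsl_apply]
    linear_combination (-f z) * this
  · simp only [atm]
    congr 1
    rw [SchwartzMap.fourier_coe, Real.fourier_eq', co_eq]
    refine Eq.trans ?_ (hμ ▸ lam.symm.toHomeomorph.measurableEmbedding.integral_map _).symm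
    refine integral_congr_ae (Eventually.of_forall fun w => ?_)
    simp [ST.mdl_apply, pw, ST.frq_apply, real_inner_comm, mul_comm]

lemma ex_pair (μ : Measure E) [μ.IsAddHaarMeasure] :
    ∃ φ ψ : 𝓢(E, ℂ), ∫ u, φ u ∂μ = 1 ∧ ∀ u, φ u * ψ (-u) = φ u := by
  obtain ⟨φ, hφ⟩ := ST.exists_ai μ
  let b : ContDiffBump (0 : E) := ⟨1, 2, one_pos, one_lt_two⟩
  have hb : Dc (cx b) := Api4.dc_cx ⟨b.contDiff, b.hasCompactSupport⟩
  refine ⟨φ 0, sch (cx b), hφ.one 0, fun u => ?_⟩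
  by_cases hu : u ∈ tsupport (φ 0)
  · have h1 : -u ∈ closedBall (0 : E) b.rIn := by simpa [b] using hφ.supp 0 hu
    rw [Api4.sch_apply hb, cx, b.one_of_mem_closedBall h1]
    simp
  · rw [image_eq_zero_of_notMem_tsupport hu, zero_mul]

variable [FiniteDimensional ℝ E'] [MeasurableSpace E'] [BorelSpace E'] {W' : Type*}
  [NormedAddCommGroup W'] [InnerProductSpace ℝ W'] [FiniteDimensional ℝ W'] [MeasurableSpace W']
  [BorelSpace W'] (lam' : E' ≃L[ℝ] W')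

lemma low2 : ∃ K, ∀ p : (E × W) × E' × W', 1 + ‖p‖ ≤ K * ((1 + ‖(p.1.1, p.2.1)‖) *
    (1 + ‖(frq (lam : E →L[ℝ] W) p.1.2).coprod (frq (lam' : E' →L[ℝ] W') p.2.2)‖)) := by
  obtain ⟨K, K0, hK⟩ := low lam
  obtain ⟨K', K0', hK'⟩ := low lam'
  refine ⟨K + K', fun p => ?_⟩
  set l := (frq (lam : E →L[ℝ] W) p.1.2).coprod (frq (lam' : E' →L[ℝ] W') p.2.2)
  have h1 : ‖frq (lam : E →L[ℝ] W) p.1.2‖ ≤ ‖l‖ :=
    ContinuousLinearMap.opNorm_le_bound _ (norm_nonneg _) fun z => by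
      simpa [l] using l.le_opNorm (z, 0)
  have h2 : ‖frq (lam' : E' →L[ℝ] W') p.2.2‖ ≤ ‖l‖ :=
    ContinuousLinearMap.opNorm_le_bound _ (norm_nonneg _) fun z => by
      simpa [l] using l.le_opNorm (0, z)
  have h3 : ‖p.1.1‖ ≤ ‖(p.1.1, p.2.1)‖ := norm_fst_le (p.1.1, p.2.1)
  have h4 : ‖p.2.1‖ ≤ ‖(p.1.1, p.2.1)‖ := norm_snd_le (p.1.1, p.2.1)
  rw [Prod.norm_def p, ← max_add_add_left]
  exact max_le ((hK p.1).trans (by gcongr; linarith)) ((hK' p.2).trans (by gcongr; linarith))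

lemma kernel0 [CompleteSpace H] {μ : Measure E} [μ.IsAddHaarMeasure] {μ' : Measure E'}
    [μ'.IsAddHaarMeasure] (hμ : μ = volume.map lam.symm) (hμ' : μ' = volume.map lam'.symm)
    (B : 𝓢(E, ℂ) →ₗ[ℂ] 𝓢(E', ℂ) →ₗ[ℂ] H) {C : ℝ} {m : ℕ}
    (h : ∀ f g, ‖B f g‖ ≤ C * ST.sn E ℂ m f * ST.sn E' ℂ m g) :
    ∃ W : 𝓢(E × E', ℂ) →L[ℂ] H, ∀ f g, W (tens f g) = B f g := by
  obtain ⟨φ, ψ, h1, h2⟩ := ex_pair μ
  obtain ⟨φ', ψ', h1', h2'⟩ := ex_pair μ'
  obtain ⟨K, hK⟩ := low2 lam lam'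
  obtain ⟨A, A0, hA⟩ := sn_atm lam ψ m
  obtain ⟨A', A0', hA'⟩ := sn_atm lam' ψ' m
  have cx : Continuous fun p : (E × W) × E' × W' => (p.1.1, p.2.1) := by fun_prop
  have cl : Continuous fun p : (E × W) × E' × W' =>
      (frq (lam : E →L[ℝ] W) p.1.2).coprod (frq (lam' : E' →L[ℝ] W') p.2.2) := by
    simp only [← ContinuousLinearMap.comp_fst_add_comp_snd]
    exact (((ST.continuous_frq _).comp (by fun_prop)).clm_comp continuous_const).add
      (((ST.continuous_frq _).comp (by fun_prop)).clm_comp continuous_const)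
  have cv : Continuous fun p : (E × W) × E' × W' => B (atm lam ψ p.1) (atm lam' ψ' p.2) :=
    (cont_bil B h).comp₂ ((continuous_atm lam ψ).comp continuous_fst)
      ((continuous_atm lam' ψ').comp continuous_snd)
  have bv : ∀ p : (E × W) × E' × W', ‖B (atm lam ψ p.1) (atm lam' ψ' p.2)‖ ≤
      |C| * A * A' * (1 + ‖p‖) ^ (m + m + (m + m)) := fun p => by
    have h3 := norm_fst_le p
    have h4 := norm_snd_le p
    calc _ ≤ _ := h _ _
      _ ≤ |C| * (A * (1 + ‖p‖) ^ (m + m)) * (A' * (1 + ‖p‖) ^ (m + m)) := by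
        gcongr
        exacts [le_abs_self C, (hA _).trans (by gcongr), (hA' _).trans (by gcongr)]
      _ = _ := by ring
  haveI : (μ.prod (volume : Measure W)).IsAddHaarMeasure := inferInstance
  haveI : (μ'.prod (volume : Measure W')).IsAddHaarMeasure := inferInstance
  haveI : ((μ.prod (volume : Measure W)).prod (μ'.prod (volume : Measure W'))).IsAddHaarMeasure :=
    Measure.prod.instIsAddHaarMeasure _ _
  obtain ⟨hi, T, hT⟩ := sup ((μ.prod volume).prod (μ'.prod volume)) _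
    (fun F => continuous_co (μ.prod μ') (tens φ φ') F cx cl) cv
    (co_bd' (μ.prod μ') (tens φ φ') hK) bv
  refine ⟨T, fun f g => ?_⟩
  rw [hT, integral_prod _ (hi _)]
  refine Eq.trans (integral_congr_ae (Eventually.of_forall fun p => ?_))
    (recon lam hμ h1 h2 (mkC (B.flip g) (C := C * ST.sn E' ℂ m g) (N := m) fun f =>
      (h f g).trans_eq (by ring)) f).symm
  simp only [co_tens, mul_smul, integral_smul]
  exact congrArg _ (recon lam' hμ' h1' h2' (mkC (B (atm lam ψ p)) (h _)) g).symm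

end frame

/-- **The kernel theorem.** -/
theorem kernel [FiniteDimensional ℝ E] [FiniteDimensional ℝ E'] [CompleteSpace H]
    (B : 𝓢(E, ℂ) →ₗ[ℂ] 𝓢(E', ℂ) →ₗ[ℂ] H) {C : ℝ} {m : ℕ}
    (h : ∀ f g, ‖B f g‖ ≤ C * sn m f * sn m g) :
    ∃ W : 𝓢(E × E', ℂ) →L[ℂ] H, ∀ f g, W (tens f g) = B f g := by
  borelize E E'
  simp only [Api4.sn_eq] at h
  exact kernel0 toEuclidean toEuclidean rfl rfl B h

end Vale.Agent.P352X.Wk
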